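import Vale.Agent.P141.H415.S3y
import Vale.Agent.P141.H876.ShiftY

/-!
# P141, line (A): (S3) in the letters of `H876.ShiftY`

* `S3y` : one point, live scales `al`;
* `S3a` : summed over the root cell, for a function with small live fibres.
-/

namespace Vale.Agent.P141.H415.S3

open Finset Matrix
open Vale.Agent.P141.PL (iv ix hs mem_iv ix_ix card_iv)
open Vale.Agent.P141.H43 (nsq nsq_nonneg)
open Vale.Agent.P141.H841 (Rm Rs om om_nonneg ep ep_nonneg)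
open Vale.Agent.P141.H876 (wn En En_nonneg)
open Vale.Agent.P141.H444.FD (farA farA_nonneg)
open Vale.Agent.P141.H420 (Tr)

noncomputable section

open scoped Classical

variable {ι : Type*} [Fintype ι] [DecidableEq ι]

variable {Mx : ℕ → ℤ → Matrix ι ι ℝ} {o x1 T M3 : ℤ} {n : ℕ} {s : ℕ → ℤ → ℤ → ℝ}

theorem poly_E {x : ℝ} (hx : 0 ≤ x) :
    8 * (40000 * (600 + 8 * x ^ 3) + 8 * (600 + 8 * x ^ 5)) +
      32 * (8 + 8 * x ^ 3) * (6 * (24 + 8 * x ^ 3) + 2) + 40000 + 8 * (24 + 8 * x ^ 3) ≤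
      200000000 * (1 + x) ^ 6 := by
  have hu : 1 ≤ 1 + x := by linarith
  have hxu : x ≤ 1 + x := by linarith
  have h1 : 1 ≤ (1 + x) ^ 6 := one_le_pow₀ hu
  have h3 : x ^ 3 ≤ (1 + x) ^ 6 :=
    (pow_le_pow_left₀ hx hxu 3).trans (pow_le_pow_right₀ hu (by norm_num))
  have h5 : x ^ 5 ≤ (1 + x) ^ 6 :=
    (pow_le_pow_left₀ hx hxu 5).trans (pow_le_pow_right₀ hu (by norm_num))
  have h6 : x ^ 6 ≤ (1 + x) ^ 6 := pow_le_pow_left₀ hx hxu 6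
  have e : 8 * (40000 * (600 + 8 * x ^ 3) + 8 * (600 + 8 * x ^ 5)) +
      32 * (8 + 8 * x ^ 3) * (6 * (24 + 8 * x ^ 3) + 2) + 40000 + 8 * (24 + 8 * x ^ 3) =
      192115968 + 2609728 * x ^ 3 + 512 * x ^ 5 + 12288 * x ^ 6 := by ring
  rw [e]
  linarith

theorem poly_F {x κ : ℝ} (hx : 0 ≤ x) (hκ : 0 ≤ κ) :
    16 * κ + (192 * (8 + 8 * x ^ 3) + 8) ≤ 1600 * (1 + x) ^ 3 * (1 + κ) := by
  have h2 : 1 + x ^ 3 ≤ (1 + x) ^ 3 := by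
    have e : (1 + x) ^ 3 = 1 + x ^ 3 + 3 * x * (1 + x) := by ring
    rw [e]
    have : 0 ≤ 3 * x * (1 + x) := by positivity
    linarith
  have h3 : 0 ≤ x ^ 3 := by positivity
  have h4 : (1 + x ^ 3) * (1 + κ) ≤ (1 + x) ^ 3 * (1 + κ) :=
    mul_le_mul_of_nonneg_right h2 (by positivity)
  have h5 : 0 ≤ x ^ 3 * κ := by positivity
  nlinarith

/-- **(S3), one point.** -/
theorem S3y {l : ℝ} {G K : ℕ → ℤ → Matrix ι ι ℝ} (h : Tr l n G K)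
    (hM : ∀ k m a, nsq (Mx k m *ᵥ a) ≤ nsq (H483.mT l K k m a))
    (hs1 : ∀ k a b, |s k a b| ≤ 1) (ho : o = 1 ∨ o = -1) {w : ι → ℝ} {q : ℝ}
    (hX : ∑ i ∈ range n, En Mx n T x1 M3 (i + 1) w ≤ q)
    {W : ℕ → ℤ → ℝ} {e : ℝ} (he : 0 ≤ e) (hW0 : ∀ k x0, 0 ≤ W k x0)
    (hW : ∀ k ≤ n, ∀ j, ∑ x0 ∈ iv k j, W k x0 ≤ e * 2 ^ k)
    {θ : ℕ → ℤ → ℝ} (hθ0 : ∀ k m, 0 ≤ θ k m)
    (hθ : ∀ k m a, nsq (Mx k m *ᵥ a) ≤ θ k m * nsq a) (al : ℕ → ℤ → Prop) (L : ℕ) (sh : ℤ)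
    {y : ℤ} (hy : y ∈ iv n M3) (hup : ∀ k < n, al k y → al (k + 1) y)
    (hal : ∀ k ≤ n, ¬ al k y → ∀ x0, W k x0 = 0) {κ : ℝ} (hκ0 : 0 ≤ κ)
    (hκ : ∀ x0 p, nsq (Rm Mx o x1 s n 0 x0 p *ᵥ w) ≤ κ * nsq w) :
    ∑ k ∈ range n, ∑ x0 ∈ iv n T, W k x0 *
        nsq ((Rs Mx o x1 s n sh k x0 (ix k (y - sh)) -
          Rs Mx o x1 s n sh (k + 1) x0 (ix (k + 1) (y - sh))) *ᵥ
            (Rs Mx o x1 s n sh (k + 1) x0 (ix (k + 1) (y - sh)) *ᵥ w)) ≤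
      e * (200000000 * (1 + (L : ℝ)) ^ 6 * q +
        1600 * (1 + (L : ℝ)) ^ 3 * (1 + κ) * (farA n L (ep θ n T x1 M3) al y * nsq w)) := by
  have hL : (0 : ℝ) ≤ L := Nat.cast_nonneg L
  have h1 := S3y_raw (al := fun k => al k y ∨ n < k) (T := T) h hM hs1 ho he hW0 hW
    (fun k hk x0 => by
      rw [not_or, not_lt] at hk
      exact hal k hk.2 hk.1 x0)
    (fun k hk hka => by
      rcases hka with hka | hka
      · exact Or.inl (hup k hk hka)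
      · omega) hθ0 hθ L sh hy w hκ
  have h2 : farW (fun k => al k y ∨ n < k) n L sh (eth θ n T x1 M3) y ≤
      farA n L (ep θ n T x1 M3) al y := by
    refine le_trans (le_of_eq ?_) (H876.om_farA n L sh (ep_nonneg hθ0 n T x1 M3) al y)
    unfold farW
    refine sum_congr rfl fun k hk => sum_congr rfl fun i _ => ?_
    rw [mem_range] at hk
    have e1 : ((al k y ∨ n < k) ∧ k + L ≤ i) ↔ (k + L ≤ i ∧ al k y) := by
      constructor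
      · rintro ⟨h3 | h3, h4⟩
        · exact ⟨h4, h3⟩
        · omega
      · rintro ⟨h3, h4⟩
        exact ⟨Or.inl h4, h3⟩
    by_cases h5 : k + L ≤ i ∧ al k y
    · rw [if_pos h5, if_pos (e1.2 h5)]
      rfl
    · rw [if_neg h5, if_neg fun h6 => h5 (e1.1 h6)]
  refine h1.trans (mul_le_mul_of_nonneg_left ?_ he)
  have hE : 0 ≤ ∑ i ∈ range n, En Mx n T x1 M3 (i + 1) w := sum_nonneg fun i _ => En_nonneg _ _
  have hw := nsq_nonneg w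
  have hA := farA_nonneg n L (ep_nonneg hθ0 n T x1 M3) al y
  refine add_le_add ?_ ?_
  · exact (mul_le_mul_of_nonneg_right (poly_E hL) hE).trans
      (mul_le_mul_of_nonneg_left hX (by positivity))
  · have e2 : 16 * (κ * nsq w) + (192 * (8 + 8 * (L : ℝ) ^ 3) + 8) * nsq w =
        (16 * κ + (192 * (8 + 8 * (L : ℝ) ^ 3) + 8)) * nsq w := by ring
    rw [e2]
    have h3 := mul_le_mul_of_nonneg_right (poly_F (κ := κ) hL hκ0) hw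
    have h4 : 0 ≤ (16 * κ + (192 * (8 + 8 * (L : ℝ) ^ 3) + 8)) * nsq w := by positivity
    refine (mul_le_mul h2 h3 h4 hA).trans (le_of_eq ?_)
    ring

/-- **(S3), summed, small live fibres.** -/
theorem S3a {l : ℝ} {G K : ℕ → ℤ → Matrix ι ι ℝ} (h : Tr l n G K)
    (hM : ∀ k m a, nsq (Mx k m *ᵥ a) ≤ nsq (H483.mT l K k m a))
    (hs1 : ∀ k a b, |s k a b| ≤ 1) (ho : o = 1 ∨ o = -1) {Q : (ι → ℝ) → ℝ}
    (hX : ∀ a, ∑ i ∈ range n, En Mx n T x1 M3 (i + 1) a ≤ 2 ^ n * Q a)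
    {W : ℕ → ℤ → ℤ → ℝ} {e : ℝ} (he : 0 ≤ e) (hW0 : ∀ k x0 y, 0 ≤ W k x0 y)
    (hW : ∀ k ≤ n, ∀ j y, ∑ x0 ∈ iv k j, W k x0 y ≤ e * 2 ^ k)
    {θ : ℕ → ℤ → ℝ} (hθ0 : ∀ k m, 0 ≤ θ k m)
    (hθ : ∀ k m a, nsq (Mx k m *ᵥ a) ≤ θ k m * nsq a) {Θ : ℝ}
    (hΘ : ∑ i ∈ range n, ep θ n T x1 M3 i ≤ Θ * 2 ^ n) {al : ℕ → ℤ → Prop} {v : ℤ → ι → ℝ} {V : ℝ}
    (hV0 : 0 ≤ V) (hV : ∀ k ≤ n, ∀ y, al k y → ∑ y' ∈ iv k (ix k y), nsq (v y') ≤ V * 2 ^ k)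
    (hup : ∀ y ∈ iv n M3, ∀ k < n, al k y → al (k + 1) y)
    (hal : ∀ y ∈ iv n M3, ∀ k ≤ n, ¬ al k y → ∀ x0, W k x0 y = 0) (L : ℕ) (sh : ℤ)
    {κ : ℝ} (hκ0 : 0 ≤ κ)
    (hκ : ∀ y ∈ iv n M3, ∀ x0 p, nsq (Rm Mx o x1 s n 0 x0 p *ᵥ v y) ≤ κ * nsq (v y)) :
    ∑ y ∈ iv n M3, ∑ k ∈ range n, ∑ x0 ∈ iv n T, W k x0 y *
        nsq ((Rs Mx o x1 s n sh k x0 (ix k (y - sh)) -
          Rs Mx o x1 s n sh (k + 1) x0 (ix (k + 1) (y - sh))) *ᵥ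
            (Rs Mx o x1 s n sh (k + 1) x0 (ix (k + 1) (y - sh)) *ᵥ v y)) ≤
      e * (200000000 * (1 + (L : ℝ)) ^ 6 * (2 ^ n * ∑ y ∈ iv n M3, Q (v y)) +
        102400 * (1 + (L : ℝ)) ^ 3 * (1 + κ) * (((L : ℝ) + 2) ^ 2 + 2) / 2 ^ L *
          (V * Θ * 4 ^ n)) := by
  refine (sum_le_sum fun y hy => S3y (s := s) h hM hs1 ho (hX (v y)) he (fun k x => hW0 k x y)
    (fun k hk j => hW k hk j y) hθ0 hθ al L sh hy (hup y hy) (hal y hy) hκ0 (hκ y hy)).trans ?_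
  rw [← mul_sum, sum_add_distrib, ← mul_sum, ← mul_sum, ← mul_sum]
  have h1 := H876.far_all (M3 := M3) (x1 := x1) (T := T) hθ0 hΘ hV0 hV L
  refine (mul_le_mul_of_nonneg_left (add_le_add le_rfl (mul_le_mul_of_nonneg_left h1
    (by positivity : (0 : ℝ) ≤ 1600 * (1 + (L : ℝ)) ^ 3 * (1 + κ)))) he).trans (le_of_eq ?_)
  ring

end

end Vale.Agent.P141.H415.S3
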