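import Vale.Agent.P141.H876.WinS
import Vale.Agent.P141.H690.ShSum
import Vale.Agent.P141.H210.MoveOff

/-!
# P141, line (A): the moving slot at one point as a martingale in `x₀`

* `Vm` : the slot at the point `y` applied to `v`, a martingale on the cells of `x₀`;
* `end_sum` : its square at the end is at most the energy of the layers;
* `off_sum` : the matrices at displaced cells applied to it.
-/

namespace Vale.Agent.P141.H415.S3

open Finset Matrix
open Vale.Agent.P141.PL (iv ix hs mem_iv ix_ix card_iv)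
open Vale.Agent.P141.H922 (ck iv_iv)
open Vale.Agent.P141.H43 (avv nsq nsq_nonneg)
open Vale.Agent.P141.H841 (Lm Rm Rs Nn Nn_nonneg om om_nonneg st st_bd dev_le Lm_le nsq_add_le
  nsq_sub_le ix_bd ix_of ix_half nsq_smul)
open Vale.Agent.P141.H876 (wn En En_nonneg near_root wt_cell wt_Nn)
open Vale.Agent.P141.H420 (Tr)

noncomputable section

variable {ι : Type*} [Fintype ι]

variable {Mx : ℕ → ℤ → Matrix ι ι ℝ} {o x1 T M3 : ℤ} {n : ℕ} {s : ℕ → ℤ → ℤ → ℝ}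

/-! ### Sums over cells -/

/-- a weighted sum of a function of the cell -/
theorem cell_sum {W : ℤ → ℝ} {e : ℝ} {k : ℕ} (hW0 : ∀ x, 0 ≤ W x)
    (hW : ∀ j, ∑ x ∈ iv k j, W x ≤ e * 2 ^ k) {j : ℕ} (hj : j ≤ n) (T : ℤ) {f : ℤ → ℝ}
    (hf : ∀ m, 0 ≤ f m) :
    ∑ x ∈ iv n T, W x * f (ix j x) ≤ e * 2 ^ (k - j) * (2 ^ j * ∑ m ∈ iv (n - j) T, f m) := by
  rw [← iv_iv hj, mul_sum, mul_sum]
  refine sum_le_sum fun m _ => ?_
  have e2 : ∑ x ∈ iv j m, W x * f (ix j x) = (∑ x ∈ iv j m, W x) * f m := by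
    rw [sum_mul]
    refine sum_congr rfl fun x hx => ?_
    rw [mem_iv.1 hx]
  rw [e2, ← mul_assoc]
  exact mul_le_mul_of_nonneg_right (wt_cell hW0 hW j m) (hf m)

theorem cell_eq {j : ℕ} (hj : j ≤ n) (T : ℤ) (f : ℤ → ℝ) :
    ∑ x ∈ iv n T, f (ix j x) = 2 ^ j * ∑ m ∈ iv (n - j) T, f m := by
  rw [← iv_iv hj, mul_sum]
  refine sum_congr rfl fun m _ => ?_
  have e2 : ∑ x ∈ iv j m, f (ix j x) = ∑ x ∈ iv j m, f m := by
    refine sum_congr rfl fun x hx => ?_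
    rw [mem_iv.1 hx]
  rw [e2, sum_const, card_iv, nsmul_eq_mul]
  push_cast
  rfl

/-! ### The martingale -/

theorem Lm_cell {i : ℕ} {x x' : ℤ} (h : ix i x = ix i x') (p : ℤ) :
    Lm Mx o x1 s (i + 1) x p = Lm Mx o x1 s (i + 1) x' p := by
  have e : ix (i + 1) x = ix (i + 1) x' := by rw [ix_half, ix_half, h]
  have e2 : hs (i + 1) x = hs (i + 1) x' := by
    unfold PL.hs
    rw [Nat.add_sub_cancel, h]
  unfold H841.Lm
  rw [e, e2]

theorem ix_up {i j : ℕ} (hij : j ≤ i) {x x' : ℤ} (h : ix j x = ix j x') : ix i x = ix i x' := by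
  have e := ix_ix j (i - j) x
  have e' := ix_ix j (i - j) x'
  rw [Nat.add_sub_cancel' hij] at e e'
  rw [← e, ← e', h]

theorem Rm_cell {j : ℕ} {x x' : ℤ} (h : ix j x = ix j x') (p : ℤ) :
    Rm Mx o x1 s n j x p = Rm Mx o x1 s n j x' p := by
  unfold H841.Rm
  refine sum_congr rfl fun i hi => ?_
  exact Lm_cell (ix_up (mem_Ico.1 hi).1 h) p

theorem Rm_succ {k : ℕ} (hk : k < n) (x p : ℤ) :
    Rm Mx o x1 s n k x p = Lm Mx o x1 s (k + 1) x p + Rm Mx o x1 s n (k + 1) x p := by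
  unfold H841.Rm
  rw [sum_eq_sum_Ico_succ_bot hk]

theorem ix_mul (k : ℕ) (m : ℤ) : ix k (2 ^ k * m) = m := by
  refine ix_of le_rfl ?_
  have : (0 : ℤ) < 2 ^ k := by positivity
  linarith

theorem pow2 (k : ℕ) (m : ℤ) : (2 : ℤ) ^ k * (2 * m) = 2 ^ (k + 1) * m := by
  rw [pow_succ]
  ring

theorem ix_even (k : ℕ) (m : ℤ) : ix k (2 ^ (k + 1) * m) = 2 * m := by
  rw [← pow2, ix_mul]

theorem ix_odd1 (k : ℕ) (m : ℤ) : ix (k + 1) (2 ^ k * (2 * m + 1)) = m := by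
  rw [ix_half, ix_mul]
  omega

/-- the two halves -/
theorem Lm_half (k : ℕ) (m p : ℤ) :
    Lm Mx o x1 s (k + 1) (2 ^ k * (2 * m + 1)) p = -Lm Mx o x1 s (k + 1) (2 ^ (k + 1) * m) p := by
  have h1 : hs (k + 1) (2 ^ k * (2 * m + 1)) = -1 := by
    unfold PL.hs
    rw [Nat.add_sub_cancel, ix_mul, if_neg (by omega)]
  have h2 : hs (k + 1) (2 ^ (k + 1) * m) = 1 := by
    unfold PL.hs
    rw [Nat.add_sub_cancel, ix_even, if_pos (by omega)]
  unfold H841.Lm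
  rw [ix_odd1, ix_mul, h1, h2, ← neg_smul]
  congr 1
  ring

/-- the slot at the point `y`, applied to `v` -/
def Rv (Mx : ℕ → ℤ → Matrix ι ι ℝ) (o x1 : ℤ) (s : ℕ → ℤ → ℤ → ℝ) (n : ℕ) (y : ℤ) (v : ι → ℝ)
    (j : ℕ) (m : ℤ) : ι → ℝ :=
  Rm Mx o x1 s n j (2 ^ j * m) y *ᵥ v

theorem Rv_ix (y : ℤ) (v : ι → ℝ) (j : ℕ) (x : ℤ) :
    Rv Mx o x1 s n y v j (ix j x) = Rm Mx o x1 s n j x y *ᵥ v := by
  unfold Rv
  rw [Rm_cell (ix_mul j (ix j x))]

theorem Rv_even {k : ℕ} (hk : k < n) (y : ℤ) (v : ι → ℝ) (m : ℤ) :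
    Rv Mx o x1 s n y v k (2 * m) =
      Rv Mx o x1 s n y v (k + 1) m + Lm Mx o x1 s (k + 1) (2 ^ (k + 1) * m) y *ᵥ v := by
  unfold Rv
  rw [pow2, Rm_succ hk, add_mulVec, add_comm]

theorem Rv_odd {k : ℕ} (hk : k < n) (y : ℤ) (v : ι → ℝ) (m : ℤ) :
    Rv Mx o x1 s n y v k (2 * m + 1) =
      Rv Mx o x1 s n y v (k + 1) m - Lm Mx o x1 s (k + 1) (2 ^ (k + 1) * m) y *ᵥ v := by
  unfold Rv
  rw [Rm_succ hk, add_mulVec, Lm_half, neg_mulVec,
    Rm_cell (j := k + 1) (x := 2 ^ k * (2 * m + 1)) (x' := 2 ^ (k + 1) * m)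
      (by rw [ix_odd1, ix_mul])]
  abel

/-- the same, cut at the root `T` -/
def Vm (Mx : ℕ → ℤ → Matrix ι ι ℝ) (o x1 : ℤ) (s : ℕ → ℤ → ℤ → ℝ) (n : ℕ) (T y : ℤ) (v : ι → ℝ)
    (j : ℕ) (m : ℤ) : ι → ℝ :=
  if ix (n - j) m = T then Rv Mx o x1 s n y v j m else 0

theorem Vm_mart (y : ℤ) (v : ι → ℝ) : H483.Mart n (Vm Mx o x1 s n T y v) := by
  intro k hk m
  have e0 : n - k = 1 + (n - (k + 1)) := by omega
  have e1 : ix (n - k) (2 * m) = ix (n - (k + 1)) m := by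
    rw [e0, ← ix_ix]
    congr 1
    unfold PL.ix
    omega
  have e2 : ix (n - k) (2 * m + 1) = ix (n - (k + 1)) m := by
    rw [e0, ← ix_ix]
    congr 1
    unfold PL.ix
    omega
  unfold Vm
  rw [e1, e2]
  by_cases h : ix (n - (k + 1)) m = T
  · rw [if_pos h, if_pos h, if_pos h, Rv_even hk, Rv_odd hk]
    funext c
    simp only [Pi.smul_apply, Pi.add_apply, Pi.sub_apply, smul_eq_mul]
    ring
  · rw [if_neg h, if_neg h, if_neg h, add_zero, smul_zero]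

theorem Vm_out (y : ℤ) (v : ι → ℝ) {x : ℤ} (hx : x ∉ iv n T) :
    Vm Mx o x1 s n T y v 0 x = 0 := by
  unfold Vm
  rw [Nat.sub_zero, if_neg fun h => hx (mem_iv.2 h)]

theorem Vm_in (y : ℤ) (v : ι → ℝ) {j : ℕ} {m : ℤ} (hm : m ∈ iv (n - j) T) :
    Vm Mx o x1 s n T y v j m = Rv Mx o x1 s n y v j m := by
  unfold Vm
  rw [if_pos (mem_iv.1 hm)]

theorem Vm_zero (y : ℤ) (v : ι → ℝ) {x : ℤ} (hx : x ∈ iv n T) :
    Vm Mx o x1 s n T y v 0 x = Rm Mx o x1 s n 0 x y *ᵥ v := by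
  rw [Vm_in y v (by rw [Nat.sub_zero]; exact hx)]
  unfold Rv
  rw [pow_zero, one_mul]

/-- **the square at the end** -/
theorem end_sum (hs1 : ∀ k a b, |s k a b| ≤ 1) (ho : o = 1 ∨ o = -1) {y : ℤ}
    (hy : y ∈ iv n M3) (v : ι → ℝ) :
    ∑ x ∈ iv n T, nsq (Rm Mx o x1 s n 0 x y *ᵥ v) ≤ ∑ i ∈ range n, En Mx n T x1 M3 (i + 1) v := by
  set S : ℕ → ℝ := fun j => 2 ^ j * ∑ m ∈ iv (n - j) T, nsq (Rv Mx o x1 s n y v j m) with hS
  have step : ∀ j < n, S j ≤ S (j + 1) + En Mx n T x1 M3 (j + 1) v := by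
    intro j hj
    have e0 : n - j = n - (j + 1) + 1 := by omega
    have e1 : ∑ m ∈ iv (n - j) T, nsq (Rv Mx o x1 s n y v j m) =
        ∑ m ∈ iv (n - (j + 1)) T, (nsq (Rv Mx o x1 s n y v j (2 * m)) +
          nsq (Rv Mx o x1 s n y v j (2 * m + 1))) := by
      rw [e0, ← iv_iv (k := 1) (K := n - (j + 1) + 1) (by omega), Nat.add_sub_cancel]
      refine sum_congr rfl fun m _ => ?_
      have : iv 1 m = {2 * m, 2 * m + 1} := by
        ext x
        unfold PL.iv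
        rw [mem_Ico, mem_insert, mem_singleton]
        omega
      rw [this, sum_pair (by omega)]
    have e2 : ∀ m, nsq (Rv Mx o x1 s n y v j (2 * m)) + nsq (Rv Mx o x1 s n y v j (2 * m + 1)) ≤
        2 * nsq (Rv Mx o x1 s n y v (j + 1) m) +
          2 * nsq (Mx (j + 1) (ck o x1 y (j + 1) - m) *ᵥ v) := by
      intro m
      rw [Rv_even hj, Rv_odd hj, H43.nsq_add, H43.nsq_sub]
      have h := Lm_le (Mx := Mx) (o := o) (x1 := x1) hs1 (j + 1) (2 ^ (j + 1) * m) y v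
      unfold H841.Nn at h
      rw [ix_mul] at h
      linarith
    have e3 : 2 ^ (j + 1) * ∑ m ∈ iv (n - (j + 1)) T,
        nsq (Mx (j + 1) (ck o x1 y (j + 1) - m) *ᵥ v) ≤ En Mx n T x1 M3 (j + 1) v := by
      have h := wt_Nn (Mx := Mx) (x1 := x1) (T := T) (M3 := M3) ho (W := fun _ => 1) (e := 1)
        (k := 0) (fun _ => zero_le_one) (fun j => by
          rw [sum_const, card_iv]; norm_num) (i := j + 1) hj (p := y)
        (by rw [mem_iv.1 hy]; linarith) (by rw [mem_iv.1 hy]; linarith) v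
      rw [Nat.zero_sub, pow_zero, one_mul, one_mul] at h
      refine le_trans (le_of_eq ?_) h
      rw [← cell_eq (n := n) (j := j + 1) hj T
        (fun m => nsq (Mx (j + 1) (ck o x1 y (j + 1) - m) *ᵥ v))]
      refine sum_congr rfl fun x _ => ?_
      unfold H841.Nn
      rw [one_mul]
    simp only [hS]
    rw [e1]
    have h4 := sum_le_sum fun m (_ : m ∈ iv (n - (j + 1)) T) => e2 m
    have h5 := mul_le_mul_of_nonneg_left h4 (by positivity : (0 : ℝ) ≤ 2 ^ j)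
    refine h5.trans ?_
    refine le_trans (le_of_eq ?_) (add_le_add le_rfl e3)
    rw [sum_add_distrib, ← mul_sum, ← mul_sum, pow_succ]
    ring
  have tot : ∀ j ≤ n, S 0 ≤ S j + ∑ i ∈ range j, En Mx n T x1 M3 (i + 1) v := by
    intro j
    induction j with
    | zero => intro _; simp
    | succ j ih =>
      intro hj
      rw [sum_range_succ]
      have h1 := ih (by omega)
      have h2 := step j (by omega)
      linarith
  have h0 : S 0 = ∑ x ∈ iv n T, nsq (Rm Mx o x1 s n 0 x y *ᵥ v) := by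
    simp only [hS]
    rw [pow_zero, one_mul, Nat.sub_zero]
    refine sum_congr rfl fun x _ => ?_
    unfold Rv
    rw [pow_zero, one_mul]
  have hn : S n = 0 := by
    simp only [hS]
    have : ∀ m, nsq (Rv Mx o x1 s n y v n m) = 0 := by
      intro m
      unfold Rv H841.Rm
      rw [Ico_self, sum_empty, zero_mulVec, H841.nsq_zero]
    simp only [this, sum_const_zero, mul_zero]
  have h := tot n le_rfl
  rw [h0, hn, zero_add] at h
  exact h

/-- **the matrices at displaced cells**, `q j` at distance at most `2 ^ (j + r)` from `y` -/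
theorem off_sum [DecidableEq ι] {l : ℝ} {G K : ℕ → ℤ → Matrix ι ι ℝ} (h : Tr l n G K)
    (hM : ∀ k m a, nsq (Mx k m *ᵥ a) ≤ nsq (H483.mT l K k m a)) (hs1 : ∀ k a b, |s k a b| ≤ 1)
    (ho : o = 1 ∨ o = -1) {y : ℤ} (hy : y ∈ iv n M3) (v : ι → ℝ) {r : ℕ} (hr : r ≤ n)
    {q : ℕ → ℤ} (hq : ∀ j, y - 2 ^ (j + r) ≤ q j ∧ q j ≤ y + 2 ^ (j + r)) :
    ∑ j ∈ Icc 1 (n - r), 2 ^ j * ∑ m ∈ iv (n - j) T,
        nsq (Mx j (ck o x1 (q j) j - m) *ᵥ Rv Mx o x1 s n y v j m) ≤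
      10000 * (1 + (r : ℝ)) ^ 2 * ∑ i ∈ range n, En Mx n T x1 M3 (i + 1) v := by
  have h1 := H210.move_off h ho x1 y (Vm_mart (Mx := Mx) (o := o) (x1 := x1) (s := s) (T := T)
    (n := n) y v) (X := iv n T) (fun x hx => Vm_out y v hx) hr
    (δ := fun j => ck o x1 y j - ck o x1 (q j) j) (fun j => ?_) (fun j => iv (n - j) T)
  · have h2 : ∑ x ∈ iv n T, Vm Mx o x1 s n T y v 0 x ⬝ᵥ Vm Mx o x1 s n T y v 0 x ≤
        ∑ i ∈ range n, En Mx n T x1 M3 (i + 1) v := by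
      refine le_trans (le_of_eq ?_) (end_sum (T := T) hs1 ho hy v)
      refine sum_congr rfl fun x hx => ?_
      rw [Vm_zero y v hx]
      rfl
    refine le_trans (sum_le_sum fun j hj => ?_) (h1.trans
      (mul_le_mul_of_nonneg_left h2 (by positivity)))
    refine mul_le_mul_of_nonneg_left (sum_le_sum fun m hm => ?_) (by positivity)
    have e : ck o x1 y j - (ck o x1 y j - ck o x1 (q j) j) - m = ck o x1 (q j) j - m := by ring
    rw [e, Vm_in y v hm]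
    exact hM _ _ _
  · -- the displacement
    have e : ck o x1 y j - ck o x1 (q j) j = ix j (q j) - ix j y := by
      unfold H922.ck
      ring
    simp only [e]
    obtain ⟨a1, a2⟩ := ix_bd j (q j)
    obtain ⟨b1, b2⟩ := ix_bd j y
    obtain ⟨c1, c2⟩ := hq j
    have hp : (0 : ℤ) < 2 ^ j := by positivity
    have hr1 : (1 : ℤ) ≤ 2 ^ r := one_le_pow₀ (by norm_num)
    rw [pow_add] at c1 c2
    set P : ℤ := 2 ^ j
    set R : ℤ := 2 ^ r
    set A := ix j (q j)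
    set B := ix j y
    rw [abs_le]
    constructor
    · by_contra hc
      have h3 : A - B ≤ -(2 * R) - 1 := by omega
      have h4 : P * (A - B) ≤ P * (-(2 * R) - 1) := mul_le_mul_of_nonneg_left h3 hp.le
      have h5 : P * R ≥ P * 1 := mul_le_mul_of_nonneg_left hr1 hp.le
      have h6 : P * (A - B) = P * A - P * B := by ring
      have h7 : P * (-(2 * R) - 1) = -(2 * (P * R)) - P := by ring
      linarith
    · by_contra hc
      have h3 : 2 * R + 1 ≤ A - B := by omega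
      have h4 : P * (2 * R + 1) ≤ P * (A - B) := mul_le_mul_of_nonneg_left h3 hp.le
      have h5 : P * R ≥ P * 1 := mul_le_mul_of_nonneg_left hr1 hp.le
      have h6 : P * (A - B) = P * A - P * B := by ring
      have h7 : P * (2 * R + 1) = 2 * (P * R) + P := by ring
      linarith

end

end Vale.Agent.P141.H415.S3
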