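import Vale.Agent.P141.H415.S3a

/-!
# P141, line (A): the moving slot on a shifted grid applied to a moving vector, one point

`y`, `v` fixed.  `al k` : the scales where the weights live.

* `dev_near` : `(S1)` at one point;
* `core` : the deviation of the slot applied to a vector `a k x₀` near `Rm k x₀ y v`;
* `S3y` : the half differences of the slot on the shifted grid applied to its own value.
-/

namespace Vale.Agent.P141.H415.S3

open Finset Matrix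
open Vale.Agent.P141.PL (iv ix hs mem_iv ix_ix card_iv)
open Vale.Agent.P141.H922 (ck iv_iv)
open Vale.Agent.P141.H43 (avv nsq nsq_nonneg)
open Vale.Agent.P141.H841 (Lm Rm Rs Nn Nn_nonneg om om_nonneg st st_bd dev_le Lm_le nsq_add_le
  nsq_sub_le ix_bd ix_of ix_half nsq_smul nsq_sum_le)
open Vale.Agent.P141.H876 (wn En En_nonneg near_root wt_cell wt_Nn)
open Vale.Agent.P141.H420 (Tr)

noncomputable section

open scoped Classical

variable {ι : Type*} [Fintype ι]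

variable {Mx : ℕ → ℤ → Matrix ι ι ℝ} {o x1 T M3 : ℤ} {n : ℕ} {s : ℕ → ℤ → ℤ → ℝ}

/-- the energy of the layer `i + 1` over the window, by the norms of the matrices -/
def eth (θ : ℕ → ℤ → ℝ) (n : ℕ) (T x1 M3 : ℤ) (i : ℕ) : ℝ :=
  2 ^ (i + 1) * ∑ R ∈ wn n T x1 M3, ∑ m ∈ iv (n - (i + 1)) R, θ (i + 1) m

theorem eth_nonneg {θ : ℕ → ℤ → ℝ} (hθ : ∀ k m, 0 ≤ θ k m) (n : ℕ) (T x1 M3 : ℤ) (i : ℕ) :
    0 ≤ eth θ n T x1 M3 i :=
  mul_nonneg (by positivity) (sum_nonneg fun _ _ => sum_nonneg fun _ _ => hθ _ _)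

/-- the far multiplicity with the weights `b` over the scales `al` -/
def farW (al : ℕ → Prop) (n L : ℕ) (sh : ℤ) (b : ℕ → ℝ) (y : ℤ) : ℝ :=
  ∑ k ∈ range (n + 1), ∑ i ∈ range n, if al k ∧ k + L ≤ i then om sh k i y * b i else 0

/-- the sum of the norms over the tied cells -/
theorem wt_th (ho : o = 1 ∨ o = -1) {W : ℤ → ℝ} {e : ℝ} {k : ℕ} (hW0 : ∀ x, 0 ≤ W x)
    (hW : ∀ j, ∑ x ∈ iv k j, W x ≤ e * 2 ^ k) {θ : ℕ → ℤ → ℝ} (hθ0 : ∀ k m, 0 ≤ θ k m) {i : ℕ}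
    (hi : i < n) (hki : k ≤ i) {p : ℤ} (h1 : M3 - 1 ≤ ix n p) (h2 : ix n p ≤ M3 + 1) :
    ∑ x0 ∈ iv n T, W x0 * θ (i + 1) (ck o x1 p (i + 1) - ix (i + 1) x0) ≤
      e * eth θ n T x1 M3 i := by
  have h := wt_Nn (Mx := fun k m => √(θ k m) • (1 : Matrix Unit Unit ℝ)) (x1 := x1) (T := T)
    (M3 := M3) ho hW0 hW (i := i + 1) hi h1 h2 (fun _ => (1 : ℝ))
  have e1 : ∀ k m, nsq ((√(θ k m) • (1 : Matrix Unit Unit ℝ)) *ᵥ fun _ => (1 : ℝ)) = θ k m := by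
    intro k m
    rw [smul_mulVec, one_mulVec, nsq_smul, Real.sq_sqrt (hθ0 k m)]
    unfold H43.nsq dotProduct
    simp
  have e2 : k - (i + 1) = 0 := by omega
  rw [e2, pow_zero, mul_one] at h
  unfold H841.Nn H876.En at h
  simp only [e1] at h
  exact h

/-- the far layers applied to a bounded vector -/
theorem far_le (ho : o = 1 ∨ o = -1) {W : ℤ → ℝ} {e : ℝ} {k : ℕ} (hW0 : ∀ x, 0 ≤ W x)
    (hW : ∀ j, ∑ x ∈ iv k j, W x ≤ e * 2 ^ k) {θ : ℕ → ℤ → ℝ} (hθ0 : ∀ k m, 0 ≤ θ k m)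
    (hθ : ∀ k m a, nsq (Mx k m *ᵥ a) ≤ θ k m * nsq a) {i : ℕ}
    (hi : i < n) (hki : k ≤ i) {p : ℤ} (h1 : M3 - 1 ≤ ix n p) (h2 : ix n p ≤ M3 + 1)
    {a : ℤ → ι → ℝ} {B : ℝ} (ha : ∀ x, nsq (a x) ≤ B) :
    ∑ x0 ∈ iv n T, W x0 * Nn Mx o x1 (i + 1) x0 p (a x0) ≤ e * eth θ n T x1 M3 i * B := by
  have hB : 0 ≤ B := (nsq_nonneg _).trans (ha 0)
  have h := mul_le_mul_of_nonneg_right
    (wt_th (T := T) (M3 := M3) (x1 := x1) ho hW0 hW hθ0 hi hki h1 h2) hB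
  refine le_trans ?_ h
  rw [sum_mul]
  refine sum_le_sum fun x0 _ => ?_
  rw [mul_assoc]
  refine mul_le_mul_of_nonneg_left ?_ (hW0 x0)
  exact (hθ _ _ _).trans (mul_le_mul_of_nonneg_left (ha x0) (hθ0 _ _))

/-- the two ends of the shifted cell are near `y` -/
theorem ends (sh : ℤ) {k : ℕ} (hk : k ≤ n) {y : ℤ} (hy : y ∈ iv n M3) :
    (M3 - 1 ≤ ix n (st sh k y) ∧ ix n (st sh k y) ≤ M3 + 1) ∧
      (M3 - 1 ≤ ix n (st sh k y + 2 ^ k) ∧ ix n (st sh k y + 2 ^ k) ≤ M3 + 1) := by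
  obtain ⟨t1, t2⟩ := st_bd sh k y
  have hp : (0 : ℤ) < 2 ^ k := by positivity
  have a := near_root hk (p := st sh k y) (y := y) (by linarith) (by linarith)
  have b := near_root hk (p := st sh k y + 2 ^ k) (y := y) (by linarith) (by linarith)
  rw [mem_iv.1 hy] at a b
  exact ⟨a, b⟩

/-! ### (S1) at one point -/

theorem dev_near (hs1 : ∀ k a b, |s k a b| ≤ 1) (ho : o = 1 ∨ o = -1) {al : ℕ → Prop}
    {W : ℕ → ℤ → ℝ} {e : ℝ} (he : 0 ≤ e) (hW0 : ∀ k x0, 0 ≤ W k x0)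
    (hW : ∀ k ≤ n, ∀ j, ∑ x0 ∈ iv k j, W k x0 ≤ e * 2 ^ k) (hal : ∀ k, ¬ al k → ∀ x0, W k x0 = 0)
    {θ : ℕ → ℤ → ℝ} (hθ0 : ∀ k m, 0 ≤ θ k m)
    (hθ : ∀ k m a, nsq (Mx k m *ᵥ a) ≤ θ k m * nsq a) (L : ℕ) (sh : ℤ) {y : ℤ}
    (hy : y ∈ iv n M3) (v : ι → ℝ) :
    ∑ k ∈ range (n + 1), ∑ x0 ∈ iv n T, W k x0 *
        nsq ((Rs Mx o x1 s n sh k x0 (ix k (y - sh)) - Rm Mx o x1 s n k x0 y) *ᵥ v) ≤
      2 * e * ((24 + 8 * (L : ℝ) ^ 3) * ∑ i ∈ range n, En Mx n T x1 M3 (i + 1) v +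
        farW al n L sh (eth θ n T x1 M3) y * nsq v) := by
  have e1 : ∀ k ∈ range (n + 1), ∑ x0 ∈ iv n T, W k x0 *
      nsq ((Rs Mx o x1 s n sh k x0 (ix k (y - sh)) - Rm Mx o x1 s n k x0 y) *ᵥ v) ≤
      2 * e * (∑ i ∈ range n, (if i + 1 ≤ k + L then
          om sh k i y * 2 ^ (k - (i + 1)) * En Mx n T x1 M3 (i + 1) v else 0) +
        (∑ i ∈ range n, (if al k ∧ k + L ≤ i then om sh k i y * eth θ n T x1 M3 i else 0)) *
          nsq v) := by
    intro k hk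
    rw [mem_range] at hk
    have hk' : k ≤ n := by omega
    obtain ⟨⟨a1, a2⟩, b1, b2⟩ := ends sh hk' hy
    by_cases hak : al k
    · have e0 : ∀ x0 ∈ iv n T, W k x0 *
          nsq ((Rs Mx o x1 s n sh k x0 (ix k (y - sh)) - Rm Mx o x1 s n k x0 y) *ᵥ v) ≤
          ∑ i ∈ range n, om sh k i y * (W k x0 * Nn Mx o x1 (i + 1) x0 (st sh k y) v +
            W k x0 * Nn Mx o x1 (i + 1) x0 (st sh k y + 2 ^ k) v) := by
        intro x0 _
        refine (mul_le_mul_of_nonneg_left (dev_le hs1 n sh hk' x0 y v) (hW0 k x0)).trans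
          (le_of_eq ?_)
        rw [mul_sum]
        exact sum_congr rfl fun i _ => by ring
      refine (sum_le_sum e0).trans ?_
      rw [sum_comm, sum_mul, ← sum_add_distrib, mul_sum]
      refine sum_le_sum fun i hi => ?_
      rw [mem_range] at hi
      rw [← mul_sum, sum_add_distrib]
      by_cases h : i + 1 ≤ k + L
      · rw [if_pos h, if_neg (by rintro ⟨-, h'⟩; omega), zero_mul, add_zero]
        have c1 := wt_Nn (Mx := Mx) (x1 := x1) (T := T) ho (hW0 k) (hW k hk') (i := i + 1)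
          (by omega) a1 a2 v
        have c2 := wt_Nn (Mx := Mx) (x1 := x1) (T := T) ho (hW0 k) (hW k hk') (i := i + 1)
          (by omega) b1 b2 v
        refine (mul_le_mul_of_nonneg_left (add_le_add c1 c2) (om_nonneg sh k i y)).trans
          (le_of_eq ?_)
        ring
      · rw [if_neg h, if_pos ⟨hak, by omega⟩, zero_add]
        have c1 := far_le (Mx := Mx) (x1 := x1) (T := T) ho (hW0 k) (hW k hk') hθ0 hθ hi
          (by omega) a1 a2 (a := fun _ => v) (B := nsq v) fun _ => le_rfl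
        have c2 := far_le (Mx := Mx) (x1 := x1) (T := T) ho (hW0 k) (hW k hk') hθ0 hθ hi
          (by omega) b1 b2 (a := fun _ => v) (B := nsq v) fun _ => le_rfl
        refine (mul_le_mul_of_nonneg_left (add_le_add c1 c2) (om_nonneg sh k i y)).trans
          (le_of_eq ?_)
        ring
    · have e0 : ∑ x0 ∈ iv n T, W k x0 *
          nsq ((Rs Mx o x1 s n sh k x0 (ix k (y - sh)) - Rm Mx o x1 s n k x0 y) *ᵥ v) = 0 :=
        sum_eq_zero fun x0 _ => by rw [hal k hak x0, zero_mul]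
      rw [e0]
      refine mul_nonneg (by positivity) (add_nonneg (sum_nonneg fun i _ => ?_)
        (mul_nonneg (sum_nonneg fun i _ => ?_) (nsq_nonneg v)))
      · split_ifs
        · exact mul_nonneg (mul_nonneg (om_nonneg _ _ _ _) (by positivity)) (En_nonneg _ _)
        · exact le_rfl
      · split_ifs
        · exact mul_nonneg (om_nonneg _ _ _ _) (eth_nonneg hθ0 _ _ _ _ _)
        · exact le_rfl
  refine (sum_le_sum e1).trans ?_
  rw [← mul_sum, sum_add_distrib, ← sum_mul]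
  refine mul_le_mul_of_nonneg_left (add_le_add ?_ le_rfl) (by positivity)
  exact H690.near_E n L sh y (E := fun i => En Mx n T x1 M3 (i + 1) v) fun i => En_nonneg _ _

/-! ### The deviation applied to a moving vector -/

/-- the layers between two scales at the point `y` -/
theorem lay_le (hs1 : ∀ k a b, |s k a b| ≤ 1) (ho : o = 1 ∨ o = -1) {W : ℤ → ℝ} {e : ℝ} {k : ℕ}
    (hW0 : ∀ x, 0 ≤ W x) (hW : ∀ j, ∑ x ∈ iv k j, W x ≤ e * 2 ^ k) (he : 0 ≤ e) (hk : k ≤ n)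
    {i : ℕ} (hi : i < n) {y : ℤ} (hy : y ∈ iv n M3) (v : ι → ℝ) :
    ∑ x0 ∈ iv n T, W x0 *
        nsq (Rm Mx o x1 s n k x0 y *ᵥ v - Rm Mx o x1 s n (i + 1) x0 y *ᵥ v) ≤
      e * (if i < k then ((k - i - 1 : ℕ) : ℝ) * 2 ^ (k - i - 1) *
          ∑ j ∈ Ico (i + 1) k, En Mx n T x1 M3 (j + 1) v
        else ((i + 1 - k : ℕ) : ℝ) * ∑ j ∈ Ico k (i + 1), En Mx n T x1 M3 (j + 1) v) := by
  -- a sum of layers
  have key : ∀ a b : ℕ, a ≤ b → b ≤ n → ∀ x0, nsq (Rm Mx o x1 s n a x0 y *ᵥ v -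
      Rm Mx o x1 s n b x0 y *ᵥ v) ≤
      ((b - a : ℕ) : ℝ) * ∑ j ∈ Ico a b, Nn Mx o x1 (j + 1) x0 y v := by
    intro a b hab hbn x0
    have e1 : Rm Mx o x1 s n a x0 y *ᵥ v - Rm Mx o x1 s n b x0 y *ᵥ v =
        ∑ j ∈ Ico a b, Lm Mx o x1 s (j + 1) x0 y *ᵥ v := by
      unfold H841.Rm
      rw [← sum_Ico_consecutive _ hab hbn, add_mulVec, add_sub_cancel_right, Matrix.sum_mulVec]
    rw [e1]
    have h := nsq_sum_le (Ico a b) (fun _ => (1 : ℝ)) (fun _ _ => one_pos)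
      (fun j => Lm Mx o x1 s (j + 1) x0 y *ᵥ v)
    simp only [inv_one, one_pow, one_mul, sum_const, nsmul_eq_mul, mul_one, Nat.card_Ico] at h
    refine h.trans (mul_le_mul_of_nonneg_left (sum_le_sum fun j _ => ?_) (by positivity))
    exact Lm_le hs1 (j + 1) x0 y v
  have wt : ∀ j < n, ∑ x0 ∈ iv n T, W x0 * Nn Mx o x1 (j + 1) x0 y v ≤
      e * 2 ^ (k - (j + 1)) * En Mx n T x1 M3 (j + 1) v := fun j hj =>
    wt_Nn (Mx := Mx) (x1 := x1) (T := T) (M3 := M3) ho hW0 hW (i := j + 1) hj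
      (by rw [mem_iv.1 hy]; linarith) (by rw [mem_iv.1 hy]; linarith) v
  by_cases h : i < k
  · rw [if_pos h]
    have h1 : ∀ x0 ∈ iv n T, W x0 *
        nsq (Rm Mx o x1 s n k x0 y *ᵥ v - Rm Mx o x1 s n (i + 1) x0 y *ᵥ v) ≤
        ((k - i - 1 : ℕ) : ℝ) * ∑ j ∈ Ico (i + 1) k, W x0 * Nn Mx o x1 (j + 1) x0 y v := by
      intro x0 _
      have e1 : nsq (Rm Mx o x1 s n k x0 y *ᵥ v - Rm Mx o x1 s n (i + 1) x0 y *ᵥ v) =
          nsq (Rm Mx o x1 s n (i + 1) x0 y *ᵥ v - Rm Mx o x1 s n k x0 y *ᵥ v) := by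
        rw [H43.nsq_sub, H43.nsq_sub, dotProduct_comm]
        ring
      rw [e1]
      refine (mul_le_mul_of_nonneg_left (key (i + 1) k h hk x0) (hW0 x0)).trans (le_of_eq ?_)
      have e2 : k - (i + 1) = k - i - 1 := by omega
      rw [e2, mul_left_comm, mul_sum]
    refine (sum_le_sum h1).trans ?_
    rw [← mul_sum, sum_comm]
    have h2 : ∑ j ∈ Ico (i + 1) k, ∑ x0 ∈ iv n T, W x0 * Nn Mx o x1 (j + 1) x0 y v ≤
        ∑ j ∈ Ico (i + 1) k, e * 2 ^ (k - i - 1) * En Mx n T x1 M3 (j + 1) v := by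
      refine sum_le_sum fun j hj => ?_
      rw [mem_Ico] at hj
      refine (wt j (by omega)).trans (mul_le_mul_of_nonneg_right
        (mul_le_mul_of_nonneg_left ?_ he) (En_nonneg _ _))
      exact pow_le_pow_right₀ (by norm_num) (by omega)
    refine (mul_le_mul_of_nonneg_left h2 (by positivity)).trans (le_of_eq ?_)
    rw [← mul_sum]
    ring
  · rw [if_neg h]
    have hki : k ≤ i + 1 := by omega
    have h1 : ∀ x0 ∈ iv n T, W x0 *
        nsq (Rm Mx o x1 s n k x0 y *ᵥ v - Rm Mx o x1 s n (i + 1) x0 y *ᵥ v) ≤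
        ((i + 1 - k : ℕ) : ℝ) * ∑ j ∈ Ico k (i + 1), W x0 * Nn Mx o x1 (j + 1) x0 y v := by
      intro x0 _
      refine (mul_le_mul_of_nonneg_left (key k (i + 1) hki hi x0) (hW0 x0)).trans (le_of_eq ?_)
      rw [mul_left_comm, mul_sum]
    refine (sum_le_sum h1).trans ?_
    rw [← mul_sum, sum_comm]
    have h2 : ∑ j ∈ Ico k (i + 1), ∑ x0 ∈ iv n T, W x0 * Nn Mx o x1 (j + 1) x0 y v ≤
        ∑ j ∈ Ico k (i + 1), e * En Mx n T x1 M3 (j + 1) v := by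
      refine sum_le_sum fun j hj => ?_
      rw [mem_Ico] at hj
      have h3 := wt j (by omega)
      have e2 : k - (j + 1) = 0 := by omega
      rw [e2, pow_zero, mul_one] at h3
      exact h3
    refine (mul_le_mul_of_nonneg_left h2 (by positivity)).trans (le_of_eq ?_)
    rw [← mul_sum]
    ring

end

end Vale.Agent.P141.H415.S3
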