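import Vale.Agent.P141.H415.S3b

/-!
# P141, line (A): (S3) at one point

* `core` : the deviation of the slot on the shifted grid applied to a vector `a k x₀`;
* `S3y_raw`, `S3y` : the half differences of the slot on the shifted grid applied to the value of
  the slot.
-/

namespace Vale.Agent.P141.H415.S3

open Finset Matrix
open Vale.Agent.P141.PL (iv ix hs mem_iv ix_ix card_iv)
open Vale.Agent.P141.H922 (ck iv_iv)
open Vale.Agent.P141.H43 (avv nsq nsq_nonneg)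
open Vale.Agent.P141.H841 (Lm Rm Rs Nn Nn_nonneg om om_nonneg st st_bd dev_le Lm_le nsq_add_le
  nsq_sub_le ix_bd ix_of ix_half nsq_smul nsq_sum_le)
open Vale.Agent.P141.H876 (wn En En_nonneg near_root wt_cell wt_Nn)
open Vale.Agent.P141.H420 (Tr)

noncomputable section

open scoped Classical

variable {ι : Type*} [Fintype ι] [DecidableEq ι]

variable {Mx : ℕ → ℤ → Matrix ι ι ℝ} {o x1 T M3 : ℤ} {n : ℕ} {s : ℕ → ℤ → ℤ → ℝ}

/-- the matrices at the cells tied to `q k`, applied to the martingale at `y` -/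
def Fq (Mx : ℕ → ℤ → Matrix ι ι ℝ) (o x1 : ℤ) (s : ℕ → ℤ → ℤ → ℝ) (n : ℕ) (T y : ℤ) (v : ι → ℝ)
    (q : ℕ → ℤ) (k i : ℕ) : ℝ :=
  2 ^ (i + 1) * ∑ m ∈ iv (n - (i + 1)) T,
    nsq (Mx (i + 1) (ck o x1 (q k) (i + 1) - m) *ᵥ Rv Mx o x1 s n y v (i + 1) m)

omit [DecidableEq ι] in
theorem Fq_nonneg (y : ℤ) (v : ι → ℝ) (q : ℕ → ℤ) (k i : ℕ) :
    0 ≤ Fq Mx o x1 s n T y v q k i :=
  mul_nonneg (by positivity) (sum_nonneg fun _ _ => nsq_nonneg _)

/-- the diagonals -/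
theorem diag_q {l : ℝ} {G K : ℕ → ℤ → Matrix ι ι ℝ} (h : Tr l n G K)
    (hM : ∀ k m a, nsq (Mx k m *ᵥ a) ≤ nsq (H483.mT l K k m a)) (hs1 : ∀ k a b, |s k a b| ≤ 1)
    (ho : o = 1 ∨ o = -1) {y : ℤ} (hy : y ∈ iv n M3) (v : ι → ℝ) (L : ℕ) (sh : ℤ)
    {q : ℕ → ℤ} (hq : ∀ k, y - 2 ^ k ≤ q k ∧ q k ≤ y + 2 ^ k) :
    ∑ k ∈ range (n + 1), ∑ i ∈ range n, (if i + 1 ≤ k + L then
        om sh k i y * 2 ^ (k - (i + 1)) * Fq Mx o x1 s n T y v q k i else 0) ≤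
      (600 + 8 * (L : ℝ) ^ 3) * (10000 * ∑ i ∈ range n, En Mx n T x1 M3 (i + 1) v) := by
  have hE : 0 ≤ ∑ i ∈ range n, En Mx n T x1 M3 (i + 1) v := sum_nonneg fun i _ => En_nonneg _ _
  refine H690.near_diag n L sh y (F := Fq Mx o x1 s n T y v q)
    (Z := 10000 * ∑ i ∈ range n, En Mx n T x1 M3 (i + 1) v) (fun k i => Fq_nonneg _ _ _ _ _)
    (by positivity) (fun r hr => ?_) (fun d hd _ => ?_)
  · have h1 := off_sum (x1 := x1) (T := T) h hM hs1 ho hy v hr.le (q := fun j => q (j + r))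
      (fun j => hq (j + r))
    have e1 : ∑ i ∈ range (n - r), Fq Mx o x1 s n T y v q (i + 1 + r) i =
        ∑ j ∈ Icc 1 (n - r), 2 ^ j * ∑ m ∈ iv (n - j) T,
          nsq (Mx j (ck o x1 (q (j + r)) j - m) *ᵥ Rv Mx o x1 s n y v j m) := by
      rw [range_eq_Ico]
      exact sum_Ico_add' (fun j => 2 ^ j * ∑ m ∈ iv (n - j) T,
        nsq (Mx j (ck o x1 (q (j + r)) j - m) *ᵥ Rv Mx o x1 s n y v j m)) 0 (n - r) 1
    rw [e1]
    refine h1.trans (le_of_eq ?_)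
    ring
  · have h1 := off_sum (x1 := x1) (T := T) h hM hs1 ho hy v (Nat.zero_le n) (q := fun j => q (j - d))
      (fun j => by
        obtain ⟨a, b⟩ := hq (j - d)
        have hle : (2 : ℤ) ^ (j - d) ≤ 2 ^ (j + 0) := pow_le_pow_right₀ (by norm_num) (by omega)
        constructor <;> linarith)
    have e1 : ∑ k ∈ range (n + 1 - d), Fq Mx o x1 s n T y v q k (k + d - 1) =
        ∑ k ∈ range (n + 1 - d), (fun j => 2 ^ j * ∑ m ∈ iv (n - j) T,
          nsq (Mx j (ck o x1 (q (j - d)) j - m) *ᵥ Rv Mx o x1 s n y v j m)) (k + d) := by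
      refine sum_congr rfl fun k _ => ?_
      have e2 : k + d - 1 + 1 = k + d := by omega
      unfold Fq
      simp only
      rw [e2, Nat.add_sub_cancel]
    rw [e1, range_eq_Ico, sum_Ico_add' (fun j => 2 ^ j * ∑ m ∈ iv (n - j) T,
          nsq (Mx j (ck o x1 (q (j - d)) j - m) *ᵥ Rv Mx o x1 s n y v j m)) 0 (n + 1 - d) d]
    refine (sum_le_sum_of_subset_of_nonneg (t := Icc 1 (n - 0)) (fun j hj => ?_) fun j _ _ =>
      mul_nonneg (by positivity) (sum_nonneg fun _ _ => nsq_nonneg _)).trans (h1.trans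
        (le_of_eq ?_))
    · rw [mem_Ico] at hj
      rw [mem_Icc]
      omega
    · rw [Nat.cast_zero]
      ring

/-- **The deviation of the slot applied to a moving vector.** -/
theorem core {l : ℝ} {G K : ℕ → ℤ → Matrix ι ι ℝ} (h : Tr l n G K)
    (hM : ∀ k m a, nsq (Mx k m *ᵥ a) ≤ nsq (H483.mT l K k m a)) (hs1 : ∀ k a b, |s k a b| ≤ 1)
    (ho : o = 1 ∨ o = -1) {al : ℕ → Prop}
    {W : ℕ → ℤ → ℝ} {e : ℝ} (he : 0 ≤ e) (hW0 : ∀ k x0, 0 ≤ W k x0)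
    (hW : ∀ k ≤ n, ∀ j, ∑ x0 ∈ iv k j, W k x0 ≤ e * 2 ^ k) (hal : ∀ k, ¬ al k → ∀ x0, W k x0 = 0)
    {θ : ℕ → ℤ → ℝ} (hθ0 : ∀ k m, 0 ≤ θ k m)
    (hθ : ∀ k m a, nsq (Mx k m *ᵥ a) ≤ θ k m * nsq a) (L : ℕ) (sh : ℤ) {y : ℤ}
    (hy : y ∈ iv n M3) (v : ι → ℝ) {a : ℕ → ℤ → ι → ℝ} {B : ℝ} (hB : ∀ k x0, nsq (a k x0) ≤ B)
    {Z : ℝ} (hZ : ∑ k ∈ range (n + 1), ∑ x0 ∈ iv n T, W k x0 *
      nsq (a k x0 - Rm Mx o x1 s n k x0 y *ᵥ v) ≤ Z) :
    ∑ k ∈ range (n + 1), ∑ x0 ∈ iv n T, W k x0 *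
        nsq ((Rs Mx o x1 s n sh k x0 (ix k (y - sh)) - Rm Mx o x1 s n k x0 y) *ᵥ a k x0) ≤
      e * ((40000 * (600 + 8 * (L : ℝ) ^ 3) + 8 * (600 + 8 * (L : ℝ) ^ 5)) *
          ∑ i ∈ range n, En Mx n T x1 M3 (i + 1) v) +
        8 * (8 + 8 * (L : ℝ) ^ 3) * Z +
        2 * e * (farW al n L sh (eth θ n T x1 M3) y * B) := by
  have hB0 : 0 ≤ B := (nsq_nonneg _).trans (hB 0 0)
  set q1 : ℕ → ℤ := fun k => st sh k y with hq1
  set q2 : ℕ → ℤ := fun k => st sh k y + 2 ^ k with hq2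
  have hq1' : ∀ k, y - 2 ^ k ≤ q1 k ∧ q1 k ≤ y + 2 ^ k := by
    intro k
    obtain ⟨t1, t2⟩ := st_bd sh k y
    have hp : (0 : ℤ) < 2 ^ k := by positivity
    simp only [hq1]
    constructor <;> linarith
  have hq2' : ∀ k, y - 2 ^ k ≤ q2 k ∧ q2 k ≤ y + 2 ^ k := by
    intro k
    obtain ⟨t1, t2⟩ := st_bd sh k y
    have hp : (0 : ℤ) < 2 ^ k := by positivity
    simp only [hq2]
    constructor <;> linarith
  set A : ℕ → ℝ := fun k => ∑ x0 ∈ iv n T, W k x0 *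
    nsq (a k x0 - Rm Mx o x1 s n k x0 y *ᵥ v) with hA
  have hA0 : ∀ k, 0 ≤ A k := fun k => sum_nonneg fun x _ => mul_nonneg (hW0 _ _) (nsq_nonneg _)
  set Y : ℕ → ℕ → ℝ := fun k i => if i < k then ((k - i - 1 : ℕ) : ℝ) * 2 ^ (k - i - 1) *
      ∑ j ∈ Ico (i + 1) k, En Mx n T x1 M3 (j + 1) v
    else ((i + 1 - k : ℕ) : ℝ) * ∑ j ∈ Ico k (i + 1), En Mx n T x1 M3 (j + 1) v with hY
  have hY0 : ∀ k i, 0 ≤ Y k i := by
    intro k i
    simp only [hY]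
    split_ifs
    · exact mul_nonneg (by positivity) (sum_nonneg fun _ _ => En_nonneg _ _)
    · exact mul_nonneg (by positivity) (sum_nonneg fun _ _ => En_nonneg _ _)
  -- one near layer at one end
  have near : ∀ k ≤ n, ∀ i < n, ∀ q : ℕ → ℤ, ∑ x0 ∈ iv n T, W k x0 *
      Nn Mx o x1 (i + 1) x0 (q k) (a k x0) ≤
      2 * (e * 2 ^ (k - (i + 1)) * Fq Mx o x1 s n T y v q k i) + 4 * A k + 4 * (e * Y k i) := by
    intro k hk i hi q
    have p1 : ∀ x0, Nn Mx o x1 (i + 1) x0 (q k) (a k x0) ≤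
        2 * nsq (Mx (i + 1) (ck o x1 (q k) (i + 1) - ix (i + 1) x0) *ᵥ
          Rv Mx o x1 s n y v (i + 1) (ix (i + 1) x0)) +
        4 * nsq (a k x0 - Rm Mx o x1 s n k x0 y *ᵥ v) +
        4 * nsq (Rm Mx o x1 s n k x0 y *ᵥ v - Rm Mx o x1 s n (i + 1) x0 y *ᵥ v) := by
      intro x0
      set M := Mx (i + 1) (ck o x1 (q k) (i + 1) - ix (i + 1) x0) with hMd
      rw [Rv_ix]
      set r := Rm Mx o x1 s n (i + 1) x0 y *ᵥ v with hr
      have e1 : M *ᵥ a k x0 = M *ᵥ r + M *ᵥ (a k x0 - r) := by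
        rw [← mulVec_add, add_sub_cancel]
      have h1 := nsq_add_le (M *ᵥ r) (M *ᵥ (a k x0 - r))
      rw [← e1] at h1
      have h2 : nsq (M *ᵥ (a k x0 - r)) ≤ nsq (a k x0 - r) :=
        (hM _ _ _).trans (H483.mT_le h hi _ _)
      have e2 : a k x0 - r = (a k x0 - Rm Mx o x1 s n k x0 y *ᵥ v) +
          (Rm Mx o x1 s n k x0 y *ᵥ v - r) := by abel
      have h3 := nsq_add_le (a k x0 - Rm Mx o x1 s n k x0 y *ᵥ v)
        (Rm Mx o x1 s n k x0 y *ᵥ v - r)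
      rw [← e2] at h3
      unfold H841.Nn
      linarith
    have c1 := cell_sum (n := n) (hW0 k) (hW k hk) (j := i + 1) hi T
      (f := fun m => nsq (Mx (i + 1) (ck o x1 (q k) (i + 1) - m) *ᵥ
        Rv Mx o x1 s n y v (i + 1) m)) fun m => nsq_nonneg _
    have c2 := lay_le (Mx := Mx) (x1 := x1) (s := s) (T := T) hs1 ho (hW0 k) (hW k hk) he hk hi hy v
    refine (sum_le_sum fun x0 _ => mul_le_mul_of_nonneg_left (p1 x0) (hW0 k x0)).trans ?_
    have e3 : ∑ x0 ∈ iv n T, W k x0 *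
        (2 * nsq (Mx (i + 1) (ck o x1 (q k) (i + 1) - ix (i + 1) x0) *ᵥ
          Rv Mx o x1 s n y v (i + 1) (ix (i + 1) x0)) +
        4 * nsq (a k x0 - Rm Mx o x1 s n k x0 y *ᵥ v) +
        4 * nsq (Rm Mx o x1 s n k x0 y *ᵥ v - Rm Mx o x1 s n (i + 1) x0 y *ᵥ v)) =
        2 * (∑ x0 ∈ iv n T, W k x0 *
          nsq (Mx (i + 1) (ck o x1 (q k) (i + 1) - ix (i + 1) x0) *ᵥ
            Rv Mx o x1 s n y v (i + 1) (ix (i + 1) x0))) + 4 * A k +
        4 * ∑ x0 ∈ iv n T, W k x0 *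
          nsq (Rm Mx o x1 s n k x0 y *ᵥ v - Rm Mx o x1 s n (i + 1) x0 y *ᵥ v) := by
      simp only [hA, mul_sum, ← sum_add_distrib]
      refine sum_congr rfl fun x0 _ => ?_
      ring
    rw [e3]
    unfold Fq
    have c3 := add_le_add (add_le_add (mul_le_mul_of_nonneg_left c1 (by norm_num : (0 : ℝ) ≤ 2))
      (le_refl (4 * A k))) (mul_le_mul_of_nonneg_left c2 (by norm_num : (0 : ℝ) ≤ 4))
    exact c3
  -- one scale
  have one : ∀ k ∈ range (n + 1), ∑ x0 ∈ iv n T, W k x0 *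
      nsq ((Rs Mx o x1 s n sh k x0 (ix k (y - sh)) - Rm Mx o x1 s n k x0 y) *ᵥ a k x0) ≤
      2 * e * (∑ i ∈ range n, (if i + 1 ≤ k + L then
          om sh k i y * 2 ^ (k - (i + 1)) * Fq Mx o x1 s n T y v q1 k i else 0)) +
      2 * e * (∑ i ∈ range n, (if i + 1 ≤ k + L then
          om sh k i y * 2 ^ (k - (i + 1)) * Fq Mx o x1 s n T y v q2 k i else 0)) +
      8 * ((∑ i ∈ range n, (if i + 1 ≤ k + L then om sh k i y else 0)) * A k) +
      8 * e * (∑ i ∈ range n, (if i + 1 ≤ k + L then om sh k i y * Y k i else 0)) +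
      2 * e * ((∑ i ∈ range n, (if al k ∧ k + L ≤ i then
        om sh k i y * eth θ n T x1 M3 i else 0)) * B) := by
    intro k hk
    rw [mem_range] at hk
    have hk' : k ≤ n := by omega
    obtain ⟨⟨a1, a2⟩, b1, b2⟩ := ends sh hk' hy
    by_cases hak : al k
    · have e0 : ∀ x0 ∈ iv n T, W k x0 *
          nsq ((Rs Mx o x1 s n sh k x0 (ix k (y - sh)) - Rm Mx o x1 s n k x0 y) *ᵥ a k x0) ≤
          ∑ i ∈ range n, om sh k i y * (W k x0 * Nn Mx o x1 (i + 1) x0 (q1 k) (a k x0) +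
            W k x0 * Nn Mx o x1 (i + 1) x0 (q2 k) (a k x0)) := by
        intro x0 _
        refine (mul_le_mul_of_nonneg_left (dev_le hs1 n sh hk' x0 y (a k x0)) (hW0 k x0)).trans
          (le_of_eq ?_)
        rw [mul_sum]
        exact sum_congr rfl fun i _ => by ring
      refine (sum_le_sum e0).trans ?_
      rw [sum_comm, sum_mul, sum_mul, mul_sum, mul_sum, mul_sum, mul_sum, mul_sum,
        ← sum_add_distrib, ← sum_add_distrib, ← sum_add_distrib, ← sum_add_distrib]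
      refine sum_le_sum fun i hi => ?_
      rw [mem_range] at hi
      rw [← mul_sum, sum_add_distrib]
      by_cases hL : i + 1 ≤ k + L
      · rw [if_pos hL, if_pos hL, if_pos hL, if_pos hL, if_neg (by rintro ⟨-, h'⟩; omega),
          zero_mul, mul_zero, add_zero]
        have c1 := near k hk' i hi q1
        have c2 := near k hk' i hi q2
        refine (mul_le_mul_of_nonneg_left (add_le_add c1 c2) (om_nonneg sh k i y)).trans
          (le_of_eq ?_)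
        ring
      · rw [if_neg hL, if_neg hL, if_neg hL, if_neg hL, if_pos ⟨hak, by omega⟩, zero_mul,
          mul_zero, mul_zero, mul_zero, add_zero, add_zero, add_zero, zero_add]
        have c1 := far_le (Mx := Mx) (x1 := x1) (T := T) ho (hW0 k) (hW k hk') hθ0 hθ hi
          (by omega) a1 a2 (a := a k) (B := B) (hB k)
        have c2 := far_le (Mx := Mx) (x1 := x1) (T := T) ho (hW0 k) (hW k hk') hθ0 hθ hi
          (by omega) b1 b2 (a := a k) (B := B) (hB k)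
        refine (mul_le_mul_of_nonneg_left (add_le_add c1 c2) (om_nonneg sh k i y)).trans
          (le_of_eq ?_)
        ring
    · have e0 : ∑ x0 ∈ iv n T, W k x0 *
          nsq ((Rs Mx o x1 s n sh k x0 (ix k (y - sh)) - Rm Mx o x1 s n k x0 y) *ᵥ a k x0) = 0 :=
        sum_eq_zero fun x0 _ => by rw [hal k hak x0, zero_mul]
      rw [e0]
      have n1 : ∀ q : ℕ → ℤ, 0 ≤ ∑ i ∈ range n, (if i + 1 ≤ k + L then
          om sh k i y * 2 ^ (k - (i + 1)) * Fq Mx o x1 s n T y v q k i else 0) := by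
        intro q
        refine sum_nonneg fun i _ => ?_
        split_ifs
        · exact mul_nonneg (mul_nonneg (om_nonneg _ _ _ _) (by positivity)) (Fq_nonneg _ _ _ _ _)
        · exact le_rfl
      have n2 : 0 ≤ ∑ i ∈ range n, (if i + 1 ≤ k + L then om sh k i y else 0) := by
        refine sum_nonneg fun i _ => ?_
        split_ifs
        · exact om_nonneg _ _ _ _
        · exact le_rfl
      have n3 : 0 ≤ ∑ i ∈ range n, (if i + 1 ≤ k + L then om sh k i y * Y k i else 0) := by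
        refine sum_nonneg fun i _ => ?_
        split_ifs
        · exact mul_nonneg (om_nonneg _ _ _ _) (hY0 _ _)
        · exact le_rfl
      have n4 : 0 ≤ ∑ i ∈ range n, (if al k ∧ k + L ≤ i then
          om sh k i y * eth θ n T x1 M3 i else 0) := by
        refine sum_nonneg fun i _ => ?_
        split_ifs
        · exact mul_nonneg (om_nonneg _ _ _ _) (eth_nonneg hθ0 _ _ _ _ _)
        · exact le_rfl
      have m1 := n1 q1
      have m2 := n1 q2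
      have m3 := hA0 k
      positivity
  refine (sum_le_sum one).trans ?_
  rw [sum_add_distrib, sum_add_distrib, sum_add_distrib, sum_add_distrib, ← mul_sum, ← mul_sum,
    ← mul_sum, ← mul_sum, ← mul_sum, ← sum_mul]
  have d1 := diag_q (x1 := x1) (T := T) h hM hs1 ho hy v L sh hq1'
  have d2 := diag_q (x1 := x1) (T := T) h hM hs1 ho hy v L sh hq2'
  have d3 : ∑ k ∈ range (n + 1), (∑ i ∈ range n, (if i + 1 ≤ k + L then om sh k i y else 0)) *
      A k ≤ (8 + 8 * (L : ℝ) ^ 3) * Z := by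
    refine (sum_le_sum fun k hk => mul_le_mul_of_nonneg_right
      (H690.near_om n L sh y (k := k) (by rw [mem_range] at hk; omega)) (hA0 k)).trans ?_
    rw [← mul_sum]
    exact mul_le_mul_of_nonneg_left hZ (by positivity)
  have d4 := H690.near_lay n L sh y (E := fun i => En Mx n T x1 M3 (i + 1) v)
    fun i => En_nonneg _ _
  have g1 := mul_le_mul_of_nonneg_left d1 (by positivity : 0 ≤ 2 * e)
  have g2 := mul_le_mul_of_nonneg_left d2 (by positivity : 0 ≤ 2 * e)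
  have g3 := mul_le_mul_of_nonneg_left d3 (by norm_num : (0 : ℝ) ≤ 8)
  have g4 := mul_le_mul_of_nonneg_left d4 (by positivity : 0 ≤ 8 * e)
  refine (add_le_add (add_le_add (add_le_add (add_le_add g1 g2) g3) g4) le_rfl).trans
    (le_of_eq ?_)
  unfold farW
  ring

/-- the average of the slot is bounded by the slot -/
theorem Rs_le {v : ι → ℝ} {B : ℝ} (hκ : ∀ x0 p, nsq (Rm Mx o x1 s n 0 x0 p *ᵥ v) ≤ B) (sh : ℤ)
    (k : ℕ) (x0 y : ℤ) : nsq (Rs Mx o x1 s n sh k x0 (ix k (y - sh)) *ᵥ v) ≤ B := by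
  have e : Rs Mx o x1 s n sh k x0 (ix k (y - sh)) *ᵥ v = ((2 : ℝ) ^ k)⁻¹ •
      ∑ p ∈ Ico (st sh k y) (st sh k y + 2 ^ k), Rm Mx o x1 s n 0 x0 p *ᵥ v := by
    unfold H841.Rs
    rw [H841.avv_st sh k y (fun p => Rm Mx o x1 s n 0 x0 p), smul_mulVec, Matrix.sum_mulVec]
  rw [e]
  exact H841.nsq_avg_le k (st sh k y) (fun p => Rm Mx o x1 s n 0 x0 p *ᵥ v) fun p _ => hκ x0 p

/-- **(S3) at one point, all constants.** -/
theorem S3y_raw {l : ℝ} {G K : ℕ → ℤ → Matrix ι ι ℝ} (h : Tr l n G K)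
    (hM : ∀ k m a, nsq (Mx k m *ᵥ a) ≤ nsq (H483.mT l K k m a)) (hs1 : ∀ k a b, |s k a b| ≤ 1)
    (ho : o = 1 ∨ o = -1) {al : ℕ → Prop}
    {W : ℕ → ℤ → ℝ} {e : ℝ} (he : 0 ≤ e) (hW0 : ∀ k x0, 0 ≤ W k x0)
    (hW : ∀ k ≤ n, ∀ j, ∑ x0 ∈ iv k j, W k x0 ≤ e * 2 ^ k) (hal : ∀ k, ¬ al k → ∀ x0, W k x0 = 0)
    (hup : ∀ k < n, al k → al (k + 1)) {θ : ℕ → ℤ → ℝ} (hθ0 : ∀ k m, 0 ≤ θ k m)
    (hθ : ∀ k m a, nsq (Mx k m *ᵥ a) ≤ θ k m * nsq a) (L : ℕ) (sh : ℤ) {y : ℤ}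
    (hy : y ∈ iv n M3) (v : ι → ℝ) {B : ℝ}
    (hκ : ∀ x0 p, nsq (Rm Mx o x1 s n 0 x0 p *ᵥ v) ≤ B) :
    ∑ k ∈ range n, ∑ x0 ∈ iv n T, W k x0 *
        nsq ((Rs Mx o x1 s n sh k x0 (ix k (y - sh)) -
          Rs Mx o x1 s n sh (k + 1) x0 (ix (k + 1) (y - sh))) *ᵥ
            (Rs Mx o x1 s n sh (k + 1) x0 (ix (k + 1) (y - sh)) *ᵥ v)) ≤
      e * ((8 * (40000 * (600 + 8 * (L : ℝ) ^ 3) + 8 * (600 + 8 * (L : ℝ) ^ 5)) +
          32 * (8 + 8 * (L : ℝ) ^ 3) * (6 * (24 + 8 * (L : ℝ) ^ 3) + 2) + 40000 +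
            8 * (24 + 8 * (L : ℝ) ^ 3)) * ∑ i ∈ range n, En Mx n T x1 M3 (i + 1) v +
        farW al n L sh (eth θ n T x1 M3) y *
          (16 * B + (192 * (8 + 8 * (L : ℝ) ^ 3) + 8) * nsq v)) := by
  set E := ∑ i ∈ range n, En Mx n T x1 M3 (i + 1) v with hE
  set Φ := farW al n L sh (eth θ n T x1 M3) y with hΦ
  set R : ℕ → ℤ → ι → ℝ := fun k x0 => Rs Mx o x1 s n sh k x0 (ix k (y - sh)) *ᵥ v with hR
  have hRB : ∀ k x0, nsq (R k x0) ≤ B := fun k x0 => Rs_le hκ sh k x0 y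
  -- the weights
  set W1 : ℕ → ℤ → ℝ := fun k x0 => if k < n then W k x0 else 0 with hW1
  set W2 : ℕ → ℤ → ℝ := fun k x0 => if k = 0 then 0 else W (k - 1) x0 with hW2
  have hW10 : ∀ k x0, 0 ≤ W1 k x0 := by
    intro k x0
    simp only [hW1]
    split_ifs
    · exact hW0 _ _
    · exact le_rfl
  have hW20 : ∀ k x0, 0 ≤ W2 k x0 := by
    intro k x0
    simp only [hW2]
    split_ifs
    · exact le_rfl
    · exact hW0 _ _
  have hW1s : ∀ k ≤ n, ∀ j, ∑ x0 ∈ iv k j, W1 k x0 ≤ e * 2 ^ k := by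
    intro k hk j
    simp only [hW1]
    split_ifs
    · exact hW k hk j
    · rw [sum_const_zero]
      positivity
  have hW2s : ∀ k ≤ n, ∀ j, ∑ x0 ∈ iv k j, W2 k x0 ≤ e * 2 ^ k := by
    intro k hk j
    rcases k with _ | k
    · simp only [hW2, if_true, sum_const_zero]
      positivity
    · have e1 : ∀ x0, W2 (k + 1) x0 = W k x0 := fun x0 => by
        simp only [hW2, Nat.succ_ne_zero, if_false, Nat.add_sub_cancel]
      simp only [e1]
      have h1 := wt_cell (hW0 k) (hW k (by omega)) (k + 1) j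
      have e2 : k - (k + 1) = 0 := by omega
      rw [e2, pow_zero, mul_one] at h1
      exact h1
  have hal1 : ∀ k, ¬ al k → ∀ x0, W1 k x0 = 0 := by
    intro k hk x0
    simp only [hW1]
    split_ifs
    · exact hal k hk x0
    · rfl
  have hal2' : ∀ k ≤ n, ¬ al k → ∀ x0, W2 k x0 = 0 := by
    intro k hkn hk x0
    rcases k with _ | k
    · simp only [hW2, if_true]
    · simp only [hW2, Nat.succ_ne_zero, if_false, Nat.add_sub_cancel]
      exact hal k (fun h' => hk (hup k (by omega) h')) x0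
  -- the second weights, cut above `n`
  set W3 : ℕ → ℤ → ℝ := fun k x0 => if k ≤ n then W2 k x0 else 0 with hW3
  have hW30 : ∀ k x0, 0 ≤ W3 k x0 := by
    intro k x0
    simp only [hW3]
    split_ifs
    · exact hW20 _ _
    · exact le_rfl
  have hW3s : ∀ k ≤ n, ∀ j, ∑ x0 ∈ iv k j, W3 k x0 ≤ e * 2 ^ k := by
    intro k hk j
    simp only [hW3, if_pos hk]
    exact hW2s k hk j
  have hal3 : ∀ k, ¬ al k → ∀ x0, W3 k x0 = 0 := by
    intro k hk x0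
    simp only [hW3]
    split_ifs with hkn
    · exact hal2' k hkn hk x0
    · rfl
  -- the deviation applied to `v`
  set D : ℝ := ∑ k ∈ range (n + 1), ∑ x0 ∈ iv n T, W3 k x0 *
    nsq ((Rs Mx o x1 s n sh k x0 (ix k (y - sh)) - Rm Mx o x1 s n k x0 y) *ᵥ v) with hD
  have hDb : D ≤ 2 * e * ((24 + 8 * (L : ℝ) ^ 3) * E + Φ * nsq v) :=
    dev_near hs1 ho he hW30 hW3s hal3 hθ0 hθ L sh hy v
  -- sums with the weights of the next scale
  have reW3 : ∀ f : ℕ → ℤ → ℝ, ∑ k ∈ range (n + 1), ∑ x0 ∈ iv n T, W3 k x0 * f k x0 =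
      ∑ k ∈ range n, ∑ x0 ∈ iv n T, W k x0 * f (k + 1) x0 := by
    intro f
    rw [sum_range_succ']
    have z : ∑ x0 ∈ iv n T, W3 0 x0 * f 0 x0 = 0 := by
      refine sum_eq_zero fun x0 _ => ?_
      simp only [hW3, hW2, if_true, Nat.zero_le, zero_mul]
    rw [z, add_zero]
    refine sum_congr rfl fun k hk => sum_congr rfl fun x0 _ => ?_
    rw [mem_range] at hk
    simp only [hW3, hW2, Nat.succ_ne_zero, if_false, Nat.add_sub_cancel]
    rw [if_pos (by omega)]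
  have reW1 : ∀ f : ℕ → ℤ → ℝ, ∑ k ∈ range (n + 1), ∑ x0 ∈ iv n T, W1 k x0 * f k x0 =
      ∑ k ∈ range n, ∑ x0 ∈ iv n T, W k x0 * f k x0 := by
    intro f
    rw [sum_range_succ]
    have z : ∑ x0 ∈ iv n T, W1 n x0 * f n x0 = 0 := by
      refine sum_eq_zero fun x0 _ => ?_
      simp only [hW1, lt_irrefl, if_false, zero_mul]
    rw [z, add_zero]
    refine sum_congr rfl fun k hk => sum_congr rfl fun x0 _ => ?_
    simp only [hW1, if_pos (mem_range.1 hk)]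
  have hD2 : D = ∑ k ∈ range n, ∑ x0 ∈ iv n T, W k x0 *
      nsq (R (k + 1) x0 - Rm Mx o x1 s n (k + 1) x0 y *ᵥ v) := by
    rw [hD, reW3 fun k x0 =>
      nsq ((Rs Mx o x1 s n sh k x0 (ix k (y - sh)) - Rm Mx o x1 s n k x0 y) *ᵥ v)]
    simp only [sub_mulVec, hR]
  -- the layer `k + 1` at the point `y`
  have hyn : M3 - 1 ≤ ix n y ∧ ix n y ≤ M3 + 1 := by
    rw [mem_iv.1 hy]
    constructor <;> linarith
  have lay1 : ∑ k ∈ range n, ∑ x0 ∈ iv n T, W k x0 * Nn Mx o x1 (k + 1) x0 y v ≤ e * E := by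
    rw [hE, mul_sum]
    refine sum_le_sum fun k hk => ?_
    rw [mem_range] at hk
    have h1 := wt_Nn (Mx := Mx) (x1 := x1) (T := T) (M3 := M3) ho (hW0 k) (hW k hk.le)
      (i := k + 1) hk (p := y) hyn.1 hyn.2 v
    have e2 : k - (k + 1) = 0 := by omega
    rw [e2, pow_zero, mul_one] at h1
    exact h1
  -- first carrier
  have hZ1 : ∑ k ∈ range (n + 1), ∑ x0 ∈ iv n T, W1 k x0 *
      nsq (R (k + 1) x0 - Rm Mx o x1 s n k x0 y *ᵥ v) ≤ 2 * D + 2 * (e * E) := by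
    rw [reW1 fun k x0 => nsq (R (k + 1) x0 - Rm Mx o x1 s n k x0 y *ᵥ v)]
    have h1 : ∀ k ∈ range n, ∀ x0 ∈ iv n T, W k x0 *
        nsq (R (k + 1) x0 - Rm Mx o x1 s n k x0 y *ᵥ v) ≤
        2 * (W k x0 * nsq (R (k + 1) x0 - Rm Mx o x1 s n (k + 1) x0 y *ᵥ v)) +
          2 * (W k x0 * Nn Mx o x1 (k + 1) x0 y v) := by
      intro k hk x0 _
      rw [mem_range] at hk
      have e1 : R (k + 1) x0 - Rm Mx o x1 s n k x0 y *ᵥ v =
          (R (k + 1) x0 - Rm Mx o x1 s n (k + 1) x0 y *ᵥ v) -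
            Lm Mx o x1 s (k + 1) x0 y *ᵥ v := by
        rw [Rm_succ hk, add_mulVec]
        abel
      rw [e1]
      have h2 := nsq_sub_le (R (k + 1) x0 - Rm Mx o x1 s n (k + 1) x0 y *ᵥ v)
        (Lm Mx o x1 s (k + 1) x0 y *ᵥ v)
      have h3 := Lm_le (Mx := Mx) (o := o) (x1 := x1) hs1 (k + 1) x0 y v
      have h4 := mul_le_mul_of_nonneg_left (h2.trans (add_le_add le_rfl
        (mul_le_mul_of_nonneg_left h3 (by norm_num : (0 : ℝ) ≤ 2)))) (hW0 k x0)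
      linarith
    refine (sum_le_sum fun k hk => sum_le_sum fun x0 hx => h1 k hk x0 hx).trans ?_
    simp only [sum_add_distrib, ← mul_sum]
    rw [← hD2]
    linarith
  -- second carrier
  have hZ2 : ∑ k ∈ range (n + 1), ∑ x0 ∈ iv n T, W3 k x0 *
      nsq (R k x0 - Rm Mx o x1 s n k x0 y *ᵥ v) ≤ D := by
    rw [hD]
    refine le_of_eq (sum_congr rfl fun k _ => sum_congr rfl fun x0 _ => ?_)
    rw [sub_mulVec]
  have c1 := core (T := T) h hM hs1 ho he hW10 hW1s hal1 hθ0 hθ L sh hy v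
    (a := fun k x0 => R (k + 1) x0) (fun k x0 => hRB (k + 1) x0) hZ1
  have c2 := core (T := T) h hM hs1 ho he hW30 hW3s hal3 hθ0 hθ L sh hy v
    (a := R) hRB hZ2
  rw [reW1 fun k x0 => nsq ((Rs Mx o x1 s n sh k x0 (ix k (y - sh)) -
    Rm Mx o x1 s n k x0 y) *ᵥ R (k + 1) x0)] at c1
  rw [reW3 fun k x0 => nsq ((Rs Mx o x1 s n sh k x0 (ix k (y - sh)) -
    Rm Mx o x1 s n k x0 y) *ᵥ R k x0)] at c2
  -- the middle layer
  have c3 : ∑ k ∈ range n, ∑ x0 ∈ iv n T, W k x0 *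
      Nn Mx o x1 (k + 1) x0 y (R (k + 1) x0) ≤ 20000 * (e * E) + 2 * D := by
    have h1 : ∀ k ∈ range n, ∑ x0 ∈ iv n T, W k x0 *
        Nn Mx o x1 (k + 1) x0 y (R (k + 1) x0) ≤
        2 * (e * (2 ^ (k + 1) * ∑ m ∈ iv (n - (k + 1)) T,
          nsq (Mx (k + 1) (ck o x1 y (k + 1) - m) *ᵥ Rv Mx o x1 s n y v (k + 1) m))) +
        2 * ∑ x0 ∈ iv n T, W k x0 *
          nsq (R (k + 1) x0 - Rm Mx o x1 s n (k + 1) x0 y *ᵥ v) := by
      intro k hk
      rw [mem_range] at hk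
      have p1 : ∀ x0, Nn Mx o x1 (k + 1) x0 y (R (k + 1) x0) ≤
          2 * nsq (Mx (k + 1) (ck o x1 y (k + 1) - ix (k + 1) x0) *ᵥ
            Rv Mx o x1 s n y v (k + 1) (ix (k + 1) x0)) +
          2 * nsq (R (k + 1) x0 - Rm Mx o x1 s n (k + 1) x0 y *ᵥ v) := by
        intro x0
        set M := Mx (k + 1) (ck o x1 y (k + 1) - ix (k + 1) x0) with hMd
        rw [Rv_ix]
        set r := Rm Mx o x1 s n (k + 1) x0 y *ᵥ v with hr
        have e1 : M *ᵥ R (k + 1) x0 = M *ᵥ r + M *ᵥ (R (k + 1) x0 - r) := by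
          rw [← mulVec_add, add_sub_cancel]
        have h1 := nsq_add_le (M *ᵥ r) (M *ᵥ (R (k + 1) x0 - r))
        rw [← e1] at h1
        have h2 : nsq (M *ᵥ (R (k + 1) x0 - r)) ≤ nsq (R (k + 1) x0 - r) :=
          (hM _ _ _).trans (H483.mT_le h hk _ _)
        unfold H841.Nn
        linarith
      have c := cell_sum (n := n) (hW0 k) (hW k hk.le) (j := k + 1) hk T
        (f := fun m => nsq (Mx (k + 1) (ck o x1 y (k + 1) - m) *ᵥ
          Rv Mx o x1 s n y v (k + 1) m)) fun m => nsq_nonneg _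
      have e2 : k - (k + 1) = 0 := by omega
      rw [e2, pow_zero, mul_one] at c
      refine (sum_le_sum fun x0 _ => mul_le_mul_of_nonneg_left (p1 x0) (hW0 k x0)).trans ?_
      have e3 : ∑ x0 ∈ iv n T, W k x0 *
          (2 * nsq (Mx (k + 1) (ck o x1 y (k + 1) - ix (k + 1) x0) *ᵥ
            Rv Mx o x1 s n y v (k + 1) (ix (k + 1) x0)) +
          2 * nsq (R (k + 1) x0 - Rm Mx o x1 s n (k + 1) x0 y *ᵥ v)) =
          2 * (∑ x0 ∈ iv n T, W k x0 *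
            nsq (Mx (k + 1) (ck o x1 y (k + 1) - ix (k + 1) x0) *ᵥ
              Rv Mx o x1 s n y v (k + 1) (ix (k + 1) x0))) +
          2 * ∑ x0 ∈ iv n T, W k x0 *
            nsq (R (k + 1) x0 - Rm Mx o x1 s n (k + 1) x0 y *ᵥ v) := by
        rw [mul_sum, mul_sum, ← sum_add_distrib]
        refine sum_congr rfl fun x0 _ => ?_
        ring
      rw [e3]
      exact add_le_add (mul_le_mul_of_nonneg_left c (by norm_num : (0 : ℝ) ≤ 2)) le_rfl
    refine (sum_le_sum h1).trans ?_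
    rw [sum_add_distrib, ← mul_sum, ← mul_sum, ← mul_sum, ← hD2]
    have h2 := off_sum (x1 := x1) (T := T) h hM hs1 ho hy v (Nat.zero_le n) (q := fun _ => y)
      (fun j => by
        have hp : (0 : ℤ) < 2 ^ (j + 0) := by positivity
        constructor <;> linarith)
    have e4 : ∑ k ∈ range n, 2 ^ (k + 1) * ∑ m ∈ iv (n - (k + 1)) T,
        nsq (Mx (k + 1) (ck o x1 y (k + 1) - m) *ᵥ Rv Mx o x1 s n y v (k + 1) m) =
        ∑ j ∈ Icc 1 (n - 0), 2 ^ j * ∑ m ∈ iv (n - j) T,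
          nsq (Mx j (ck o x1 y j - m) *ᵥ Rv Mx o x1 s n y v j m) := by
      rw [range_eq_Ico, Nat.sub_zero]
      exact sum_Ico_add' (fun j => 2 ^ j * ∑ m ∈ iv (n - j) T,
        nsq (Mx j (ck o x1 y j - m) *ᵥ Rv Mx o x1 s n y v j m)) 0 n 1
    rw [e4]
    rw [Nat.cast_zero, add_zero, one_pow, mul_one] at h2
    have h3 := mul_le_mul_of_nonneg_left h2 he
    rw [← hE] at h3
    linarith
  -- one point
  have p1 : ∀ k ∈ range n, ∀ x0 ∈ iv n T, W k x0 *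
      nsq ((Rs Mx o x1 s n sh k x0 (ix k (y - sh)) -
        Rs Mx o x1 s n sh (k + 1) x0 (ix (k + 1) (y - sh))) *ᵥ
          (Rs Mx o x1 s n sh (k + 1) x0 (ix (k + 1) (y - sh)) *ᵥ v)) ≤
      4 * (W k x0 * nsq ((Rs Mx o x1 s n sh k x0 (ix k (y - sh)) -
        Rm Mx o x1 s n k x0 y) *ᵥ R (k + 1) x0)) +
      4 * (W k x0 * nsq ((Rs Mx o x1 s n sh (k + 1) x0 (ix (k + 1) (y - sh)) -
        Rm Mx o x1 s n (k + 1) x0 y) *ᵥ R (k + 1) x0)) +
      2 * (W k x0 * Nn Mx o x1 (k + 1) x0 y (R (k + 1) x0)) := by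
    intro k hk x0 _
    rw [mem_range] at hk
    change W k x0 * nsq ((Rs Mx o x1 s n sh k x0 (ix k (y - sh)) -
        Rs Mx o x1 s n sh (k + 1) x0 (ix (k + 1) (y - sh))) *ᵥ R (k + 1) x0) ≤ _
    set a := R (k + 1) x0 with ha
    have e1 : (Rs Mx o x1 s n sh k x0 (ix k (y - sh)) -
        Rs Mx o x1 s n sh (k + 1) x0 (ix (k + 1) (y - sh))) *ᵥ a =
        ((Rs Mx o x1 s n sh k x0 (ix k (y - sh)) - Rm Mx o x1 s n k x0 y) *ᵥ a -
        (Rs Mx o x1 s n sh (k + 1) x0 (ix (k + 1) (y - sh)) - Rm Mx o x1 s n (k + 1) x0 y) *ᵥ a) +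
        Lm Mx o x1 s (k + 1) x0 y *ᵥ a := by
      rw [Rm_succ hk]
      simp only [sub_mulVec, add_mulVec]
      abel
    rw [e1]
    have h1 := nsq_add_le ((Rs Mx o x1 s n sh k x0 (ix k (y - sh)) - Rm Mx o x1 s n k x0 y) *ᵥ a -
        (Rs Mx o x1 s n sh (k + 1) x0 (ix (k + 1) (y - sh)) - Rm Mx o x1 s n (k + 1) x0 y) *ᵥ a)
        (Lm Mx o x1 s (k + 1) x0 y *ᵥ a)
    have h2 := nsq_sub_le ((Rs Mx o x1 s n sh k x0 (ix k (y - sh)) - Rm Mx o x1 s n k x0 y) *ᵥ a)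
        ((Rs Mx o x1 s n sh (k + 1) x0 (ix (k + 1) (y - sh)) - Rm Mx o x1 s n (k + 1) x0 y) *ᵥ a)
    have h3 := Lm_le (Mx := Mx) (o := o) (x1 := x1) hs1 (k + 1) x0 y a
    have h4 := mul_le_mul_of_nonneg_left (h1.trans (add_le_add (mul_le_mul_of_nonneg_left h2
      (by norm_num : (0 : ℝ) ≤ 2)) (mul_le_mul_of_nonneg_left h3 (by norm_num : (0 : ℝ) ≤ 2))))
      (hW0 k x0)
    refine h4.trans (le_of_eq ?_)
    ring
  refine (sum_le_sum fun k hk => sum_le_sum fun x0 hx => p1 k hk x0 hx).trans ?_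
  simp only [sum_add_distrib, ← mul_sum]
  have hL3 : (0 : ℝ) ≤ 8 * (8 + 8 * (L : ℝ) ^ 3) := by positivity
  have d1 := mul_le_mul_of_nonneg_left hDb hL3
  refine (add_le_add (add_le_add (mul_le_mul_of_nonneg_left c1 (by norm_num : (0 : ℝ) ≤ 4))
    (mul_le_mul_of_nonneg_left c2 (by norm_num : (0 : ℝ) ≤ 4)))
    (mul_le_mul_of_nonneg_left c3 (by norm_num : (0 : ℝ) ≤ 2))).trans ?_
  rw [← hE, ← hΦ]
  nlinarith [d1, hDb]

end

end Vale.Agent.P141.H415.S3
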